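import Vale.Agent.P194.Chain

namespace Vale.Agent.P201

open Vale.Agent.P194

variable {P V : Type}

theorem torsion_index {G : Type} [Group G] (g : G) :
    ∃ j : G → ZMod (orderOf g), ∀ p, j (g * p) = j p + 1 := by
  let S := QuotientGroup.rightRel (Subgroup.zpowers g)
  have h1 : ∀ p : G, ∃ m : ℤ, g ^ m = p * ((Quotient.mk S p).out)⁻¹ := fun p =>
    Subgroup.mem_zpowers_iff.1 (QuotientGroup.rightRel_apply.1 (Quotient.mk_out (s := S) p))
  choose m hm using h1
  refine ⟨fun p => (m p : ZMod (orderOf g)), fun p => ?_⟩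
  have h2 : Quotient.mk S (g * p) = Quotient.mk S p := by
    symm
    apply Quotient.sound
    apply QuotientGroup.rightRel_apply.2
    simp
  have h3 : g ^ m (g * p) = g ^ (m p + 1) := by
    rw [hm, h2, add_comm, zpow_add, zpow_one, hm, mul_assoc]
  have h4 := (ZMod.intCast_eq_intCast_iff _ _ _).2 (zpow_eq_zpow_iff_modEq.1 h3)
  simpa using h4

theorem torsion_pathsum_shift {H : Type} [Group H] (Ψ : FreeGroup P →* H) (Φ : H → P → ℤ) (g : H)
    (hΦ : ∀ p s, Φ (g * p) s = Φ p s) (p : H) (w : List (P × Bool)) :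
    pathsum Ψ Φ (g * p) w = pathsum Ψ Φ p w := by
  induction w generalizing p with
  | nil => rfl
  | cons e w ih =>
    obtain ⟨s, b⟩ := e
    simp only [pathsum, mul_assoc, hΦ, ih]

theorem torsion_pathsum_pow {H : Type} [Group H] (Ψ : FreeGroup P →* H) (Φ : H → P → ℤ)
    (w : List (P × Bool)) (hΦ : ∀ p s, Φ (Ψ (FreeGroup.mk w) * p) s = Φ p s) (k : ℕ) :
    FreeGroup.mk (List.replicate k w).flatten = FreeGroup.mk w ^ k ∧
      pathsum Ψ Φ 1 (List.replicate k w).flatten = k * pathsum Ψ Φ 1 w := by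
  induction k with
  | zero => exact ⟨rfl, by simp [pathsum]⟩
  | succ k ih =>
    rw [List.replicate_succ, List.flatten_cons, ← FreeGroup.mul_mk, ih.1, pow_succ',
      pathsum_append, one_mul, ← mul_one (Ψ (FreeGroup.mk w)), torsion_pathsum_shift Ψ Φ _ hΦ, ih.2]
    refine ⟨rfl, ?_⟩
    push_cast
    ring

theorem torsion_pathsum_mod {H : Type} [Group H] (Ψ : FreeGroup P →* H) {k : ℕ} [NeZero k]
    (j : H → ZMod k) (p : H) (w : List (P × Bool)) :
    ((pathsum Ψ (fun p s => ((j (p * gen Ψ s true) - j p).val : ℤ)) p w : ℤ) : ZMod k) =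
      j (p * Ψ (FreeGroup.mk w)) - j p := by
  induction w generalizing p with
  | nil =>
    have : FreeGroup.mk ([] : List (P × Bool)) = 1 := rfl
    simp [pathsum, this]
  | cons e w ih =>
    obtain ⟨s, b⟩ := e
    have := gen_mul_not Ψ s false
    simp only [Bool.not_false] at this
    simp only [pathsum, map_mk_cons, Int.cast_add, ih]
    cases b
    · simp [mul_assoc, this]
    · simp [mul_assoc]

/-- T. The group of an aspherical labelled graph is torsion-free. -/
theorem torsion_free {D : Design P V} {σ : P → V → V} (hσ : IsGraph D σ) (h : Asph D σ)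
    (g : Gq D σ) (hg : IsOfFinOrder g) : g = 1 := by
  classical
  obtain ⟨u, hu⟩ : ∃ u, qmk D σ u = g := QuotientGroup.mk'_surjective _ g
  obtain ⟨w, rfl⟩ := Quot.exists_rep u
  rw [FreeGroup.quot_mk_eq_mk] at hu
  have hk : 0 < orderOf g := hg.orderOf_pos
  have : NeZero (orderOf g) := ⟨hk.ne'⟩
  have hK := kills_qmk D σ
  obtain ⟨j, hj⟩ := torsion_index g
  obtain ⟨γ, hγ⟩ := exists_gamma_gen hσ hK
  obtain ⟨c, hc⟩ := exists_fill hσ (qmk D σ) (n := FreeGroup.mk w ^ orderOf g)
    (by rw [map_pow, hu, pow_orderOf_eq_one])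
  have hinv : Finsupp.mapDomain (fun e : Gq D σ × V × P => (g * e.1, e.2)) c = c := by
    have h1 := (hc.conj (FreeGroup.mk w)).mul (hc.inv hσ hK)
    have h2 : FreeGroup.mk w * FreeGroup.mk w ^ orderOf g * (FreeGroup.mk w)⁻¹ *
        (FreeGroup.mk w ^ orderOf g)⁻¹ = 1 := by group
    rw [h2, hu] at h1
    exact add_neg_eq_zero.1 (h.eq_zero h1)
  let Φ : Gq D σ → P → ℤ := fun p s => ((j (p * gen (qmk D σ) s true) - j p).val : ℤ)
  have hΦ : ∀ p s, Φ (g * p) s = Φ p s := by
    intro p s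
    simp only [Φ, mul_assoc, hj, add_sub_add_right_eq_sub]
  let T : ZMod (orderOf g) → ℤ := fun i =>
    c.sum (fun e m => if j (e.1 * (γ e.2.1)⁻¹) = i then m * Φ e.1 e.2.2 else 0)
  have hT1 : ∀ i, T (i + 1) = T i := by
    intro i
    simp only [T]
    conv_lhs => rw [← hinv]
    rw [Finsupp.sum_mapDomain_index (by simp) (by intros; split_ifs <;> ring)]
    simp only [mul_assoc, hj, hΦ, add_left_inj]
  have hT2 : ∀ i, T i = T 0 := by
    have : ∀ m : ℕ, T m = T 0 := by
      intro m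
      induction m with
      | zero => simp
      | succ m ih => rw [Nat.cast_succ, hT1, ih]
    intro i
    rw [← this i.val, ZMod.natCast_zmod_val]
  have hT3 : c.sum (fun e m => m * Φ e.1 e.2.2) = orderOf g * T 0 := by
    have : c.sum (fun e m => m * Φ e.1 e.2.2) = ∑ i, T i := by
      simp only [T, Finsupp.sum]
      rw [Finset.sum_comm]
      refine Finset.sum_congr rfl (fun e _ => ?_)
      simp
    rw [this, Finset.sum_congr rfl (fun i _ => hT2 i), Finset.sum_const, Finset.card_univ,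
      ZMod.card, nsmul_eq_mul]
  have hT4 : ((T 0 : ℤ) : ZMod (orderOf g)) = 0 := by
    refine Eq.trans ?_ (hc.cycle hσ hK (fun p x => if j (p * (γ x)⁻¹) = 0 then j p else 0))
    simp only [T, Finsupp.sum]
    rw [Int.cast_sum]
    refine Finset.sum_congr rfl (fun e he => ?_)
    obtain ⟨a1, a2⟩ := hc.support hσ e he
    rw [hγ _ _ a2, a1, mul_inv_rev, mul_assoc, mul_inv_cancel_left]
    split_ifs
    · simp [Φ]
    · simp
  obtain ⟨b1, b2⟩ := torsion_pathsum_pow (qmk D σ) Φ w (by rw [hu]; exact hΦ) (orderOf g)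
  rw [← b1] at hc
  have b3 := hc.pathsum_eq hσ hK Φ
  rw [hT3, b2] at b3
  have b4 : T 0 = pathsum (qmk D σ) Φ 1 w :=
    mul_left_cancel₀ (by exact_mod_cast hk.ne') b3
  have b5 := torsion_pathsum_mod (qmk D σ) j 1 w
  have hj1 := hj 1
  rw [mul_one] at hj1
  rw [hu, one_mul, hj1, add_sub_cancel_left] at b5
  have b6 : (1 : ZMod (orderOf g)) = 0 := by
    rw [← hT4, b4]; exact b5.symm
  have b7 : orderOf g ∣ 1 := (ZMod.natCast_eq_zero_iff 1 _).1 (by simpa using b6)
  exact orderOf_eq_one_iff.1 (Nat.dvd_one.1 b7)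

end Vale.Agent.P201
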